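import Vale.Agent.P354CB70.Pu

/-!
The differential of a local isometry stays bounded up to a boundary point.
-/

open scoped ContDiff
open Set Filter Topology Metric

namespace Vale.Agent.P354CB70

open Vale.Agent.P354n Vale.Agent.P354CB
open Vale.Agent.P354XE (Tw Lor)
open Vale.Agent.P354YC (Is iso_iff fut_map)
open Vale.Agent.P354XJ (bilin_of co_mem inv_co co_inv inv_cont co_cont on_nhds inv_mem isOpen_tgt)

theorem gron {E : Type} [NormedAddCommGroup E] [NormedSpace ℝ E] {P P' : ℝ → E} {h h' : ℝ → ℝ}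
    {s : ℝ} (s0 : 0 ≤ s) (k : ∀ t ∈ Icc 0 s, HasDerivAt P (P' t) t ∧ HasDerivAt h (h' t) t ∧
      ‖P' t‖ ≤ h' t * ‖P t‖) : ‖P s‖ ≤ (‖P 0‖ + 1) * Real.exp (h s - h 0 + s) := by
  have d : ∀ t ∈ Icc 0 s, HasDerivAt (fun t => (‖P 0‖ + 1) * Real.exp (h t - h 0 + t))
      ((‖P 0‖ + 1) * (Real.exp (h t - h 0 + t) * (h' t + 1))) t := fun t ht =>
    (((k t ht).2.1.sub_const _).add (hasDerivAt_id' t)).exp.const_mul _
  refine image_norm_le_of_norm_deriv_right_lt_deriv_boundary' (f := P) (f' := P') (a := 0) (b := s)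
    (fun t ht => (k t ht).1.continuousAt.continuousWithinAt)
    (fun t ht => (k t (Ico_subset_Icc_self ht)).1.hasDerivWithinAt) (by simp)
    (fun t ht => (d t ht).continuousAt.continuousWithinAt)
    (fun t ht => (d t (Ico_subset_Icc_self ht)).hasDerivWithinAt) (fun t ht e => ?_)
    (right_mem_Icc.2 s0)
  have := (k t (Ico_subset_Icc_self ht)).2.2
  have p : 0 < (‖P 0‖ + 1) * Real.exp (h t - h 0 + t) := by positivity
  rw [e] at this
  nlinarith

variable {M N : Spc} {e : M.Chart} {e' : N.Chart} {p T : R4} {r L c : ℝ}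

/-- The bound along segments in the direction v. -/
theorem along (K3 : LK3) (hM : St M) (hN : St N) (n : NB e' p r L c T) {K : Set R4}
    (hK : IsCompact K) (sub : K ⊆ tgt e) (v : R4) {s : ℝ} (s0 : 0 ≤ s) :
    ∃ A, 0 ≤ A ∧ ∀ (F : R4 → R4) (b : R4), (∀ t ∈ Icc 0 s, b + t • v ∈ K ∧
      F (b + t • v) ∈ closedBall p r ∧
      M.g e (b + t • v) v v < 0 ∧ M.g e (b + t • v) v (M.X e (b + t • v)) < 0 ∧
      ∀ᶠ z in 𝓝 (b + t • v), z ∈ tgt e ∧ F z ∈ tgt e' ∧
        Is (M.g e) (M.X e) (N.g e') (N.X e') F z) →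
      ‖fderiv ℝ F (b + s • v)‖ ≤ (‖fderiv ℝ F b‖ + 1) * A := by
  obtain ⟨θ, hθ⟩ := theta hN n
  obtain ⟨Γ, g1, g2⟩ := K3.gam (hM.lor e)
  obtain ⟨Γ', g1', g2'⟩ := K3.gam (hN.lor e')
  obtain ⟨a, ha⟩ := hK.exists_bound_of_continuousOn (f := Γ) (g1.continuousOn.mono sub)
  obtain ⟨a', ha'⟩ := (isCompact_closedBall p r).exists_bound_of_continuousOn (f := Γ')
    (g1'.continuousOn.mono n.sub)
  have c0 := n.c0
  have a0 : 0 ≤ a' := (norm_nonneg _).trans (ha' p (mem_closedBall_self n.r0.le))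
  refine ⟨Real.exp (a * ‖v‖ * s + a' / c * (‖θ‖ * (r + r)) + s), by positivity, fun F b k => ?_⟩
  have dl : ∀ t : ℝ, HasDerivAt (fun t : ℝ => b + t • v) v t := fun t => by
    simpa using ((hasDerivAt_id t).smul_const v).const_add b
  have := gron (P := fun t => fderiv ℝ F (b + t • v))
    (P' := fun t => fderiv ℝ (fderiv ℝ F) (b + t • v) v)
    (h := fun t => a * ‖v‖ * t + a' / c * θ (F (b + t • v)))
    (h' := fun t => a * ‖v‖ + a' / c * θ (fderiv ℝ F (b + t • v) v)) s0 fun t ht => ?_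
  · simp only [zero_smul, add_zero, mul_zero, zero_add] at this
    refine this.trans (mul_le_mul_of_nonneg_left (Real.exp_le_exp.2 ?_) (by positivity))
    have k0 := (k 0 (left_mem_Icc.2 s0)).2.1
    have k1 := (k s (right_mem_Icc.2 s0)).2.1
    rw [zero_smul, add_zero] at k0
    have k2 : θ (F (b + s • v)) - θ (F b) ≤ ‖θ‖ * (r + r) := by
      rw [← map_sub]
      refine (le_abs_self _).trans ((θ.le_opNorm _).trans
        (mul_le_mul_of_nonneg_left ?_ (norm_nonneg _)))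
      rw [← dist_eq_norm]
      exact (dist_triangle_right _ _ p).trans (add_le_add k1 k0)
    have := mul_le_mul_of_nonneg_left k2 (div_nonneg a0 c0.le)
    linarith
  obtain ⟨k1, k2, k3, k4, k5⟩ := k t ht
  obtain ⟨m, m', I⟩ := k5.self_of_nhds
  have d1 := I.1.differentiableAt (by simp)
  have d2 : DifferentiableAt ℝ (fderiv ℝ F) (b + t • v) :=
    (I.1.fderiv_right (m := 1) (by norm_cast)).differentiableAt one_ne_zero
  refine ⟨d2.hasFDerivAt.comp_hasDerivAt t (dl t), ?_, ?_⟩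
  · exact (by simpa using (hasDerivAt_id t).const_mul (a * ‖v‖) :
      HasDerivAt (fun t => a * ‖v‖ * t) (a * ‖v‖) t).add
      ((θ.hasFDerivAt.comp_hasDerivAt t (d1.hasFDerivAt.comp_hasDerivAt t (dl t))).const_mul _)
  have je := K3.je (hM.lor e) (hN.lor e') (G := fun y a b => Γ y a b)
    (G' := fun y a b => Γ' y a b) k5 ((g2 _ m _).2 fun _ _ => rfl) ((g2' _ m' _).2 fun _ _ => rfl) v
  set y := b + t • v
  set P := fderiv ℝ F y
  have q : c * ‖P v‖ ≤ θ (P v) := hθ _ ▸ n.cone _ k2 p (mem_closedBall_self n.r0.le) _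
    ((I.2.1 v v).symm.trans_lt k3).le (fut_map (hM.lor e) (hN.lor e') m m' I.2.1 I.2.2 k3 k4).le
  have q1 : a' * ‖P v‖ ≤ a' / c * θ (P v) := by
    rw [div_mul_eq_mul_div, le_div_iff₀ c0]
    nlinarith [mul_le_mul_of_nonneg_left q a0]
  have a1 : 0 ≤ a := (norm_nonneg _).trans (ha _ k1)
  refine ContinuousLinearMap.opNorm_le_bound _ (mul_nonneg (add_nonneg (by positivity)
    (le_trans (by positivity) q1)) (norm_nonneg _)) fun u => ?_
  rw [je u]
  have b1 : ‖P (Γ y v u)‖ ≤ ‖P‖ * (a * ‖v‖ * ‖u‖) :=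
    (P.le_opNorm _).trans (mul_le_mul_of_nonneg_left (((Γ y).le_opNorm₂ v u).trans
      (by gcongr; exact ha _ k1)) (norm_nonneg _))
  have b2 : ‖Γ' (F y) (P v) (P u)‖ ≤ a' * ‖P v‖ * (‖P‖ * ‖u‖) :=
    ((Γ' (F y)).le_opNorm₂ _ _).trans (by gcongr; exacts [ha' _ k2, P.le_opNorm u])
  have b3 : a' * ‖P v‖ * (‖P‖ * ‖u‖) ≤ a' / c * θ (P v) * (‖P‖ * ‖u‖) := by gcongr
  refine (norm_sub_le _ _).trans ?_
  nlinarith

theorem kj (Lo : L1) (K3 : LK3) : KJ := by
  intro M N hM hN U ψ hU hψ e' p r L c T n x hx V hV h1 h2 e he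
  obtain ⟨r1, L1, c1, n1⟩ := Lo.nb M hM e _ (co_mem he)
  set x0 := co e x with hx0
  set v := M.X e x0
  obtain ⟨r2, r20, hr2⟩ := Metric.nhds_basis_closedBall.mem_iff.1
    ((inv_cont (co_mem he)).preimage_mem_nhds (by rwa [inv_co he]))
  replace n1 := n1.mono (lt_min n1.r0 r20) (min_le_left _ _)
  replace hr2 := (closedBall_subset_closedBall (min_le_right r1 r2)).trans hr2
  generalize min r1 r2 = ρ at n1 hr2
  have ρ0 := n1.r0
  obtain ⟨s, s0, hs⟩ : ∃ s : ℝ, 0 < s ∧ s * ‖v‖ ≤ ρ / 2 := ⟨ρ / 2 / (‖v‖ + 1), by positivity, by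
    rw [div_mul_eq_mul_div, div_le_iff₀ (by positivity)]
    nlinarith⟩
  have inb : ∀ z ∈ closedBall x0 (ρ / 2), ∀ t ∈ Icc 0 s, z - t • v ∈ closedBall x0 ρ :=
    fun z hz t ht => by
      have k1 : dist (z - t • v) z ≤ ρ / 2 := by
        rw [dist_eq_norm, sub_sub_cancel_left, norm_neg, norm_smul, Real.norm_of_nonneg ht.1]
        exact (mul_le_mul_of_nonneg_right ht.2 (norm_nonneg _)).trans hs
      have k2 := dist_triangle (z - t • v) z x0
      have k3 : dist z x0 ≤ ρ / 2 := hz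
      rw [mem_closedBall]
      linarith
  have ll : ∀ z ∈ closedBall x0 (ρ / 2), ∀ t ∈ Ioc 0 s, LL M (inv e (z - t • v)) (inv e z) :=
    fun z hz t ht => by
      refine ⟨_, Lo.b.seg hM (e := e) (z := z - t • v) (v := t • v) fun u hu => ?_, by simp, by simp⟩
      have k := inb z hz ((1 - u) * t) ⟨mul_nonneg (sub_nonneg.2 hu.2) ht.1.le, by
        nlinarith [hu.1, ht.1, ht.2]⟩
      rw [show z - t • v + u • t • v = z - ((1 - u) * t) • v by module]
      have B := bilin_of (hM.lor e) (n1.sub k)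
      rw [B.smul_left, B.smul_left, B.smul_right]
      exact ⟨n1.sub k, mul_neg_of_pos_of_neg ht.1 (mul_neg_of_pos_of_neg ht.1 (n1.tl _ k).1),
        mul_neg_of_pos_of_neg ht.1 (n1.tl _ k).2⟩
  set F : R4 → R4 := fun y => co e' (ψ (inv e y)) with hF
  have ev : ∀ y ∈ closedBall x0 ρ, inv e y ∈ U → ∀ᶠ z in 𝓝 y, z ∈ tgt e ∧ F z ∈ tgt e' ∧
      Is (M.g e) (M.X e) (N.g e') (N.X e') F z := fun y hy k => by
    have ci := inv_cont (n1.sub hy)
    filter_upwards [(isOpen_tgt e).mem_nhds (n1.sub hy), ci.eventually (hU.mem_nhds k),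
      (ContinuousAt.comp (g := ψ) (hψ _ k).1 ci).eventually (on_nhds (h1 _ k (hr2 hy)).1)]
      with z z1 z2 z3
    have := (hψ _ z2).2 e e' (inv_mem z1) z3
    rw [co_inv z1] at this
    exact ⟨z1, co_mem z3, iso_iff.1 this⟩
  have m0 : x0 ∈ closedBall x0 (ρ / 2) := mem_closedBall_self (half_pos ρ0).le
  have ms := right_mem_Icc.2 s0.le
  have b0 : inv e (x0 - s • v) ∈ U := by
    have k := ll x0 m0 s ⟨s0, le_rfl⟩
    rw [hx0, inv_co he] at k
    obtain ⟨u, u1, u2⟩ := mem_closure_iff_nhds.1 hx _ ((Lo.opF hM _).mem_nhds k)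
    exact h2 u u2 _ (hr2 (inb x0 m0 s ms)) u1
  have cb : ContinuousAt (fun z => fderiv ℝ F (z - s • v)) x0 :=
    ContinuousAt.comp (g := fderiv ℝ F) ((ev _ (inb x0 m0 s ms) b0).self_of_nhds.2.2.1.of_le
      (m := 1) (by norm_cast) |>.continuousAt_fderiv one_ne_zero) (by fun_prop)
  obtain ⟨A, A0, hA⟩ := along K3 hM hN n (isCompact_closedBall x0 ρ) n1.sub v s0.le
  refine ⟨(‖fderiv ℝ F (x0 - s • v)‖ + 1 + 1) * A, ?_⟩
  filter_upwards [closedBall_mem_nhds x0 (half_pos ρ0),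
    cb.norm.eventually (ge_mem_nhds (lt_add_one _))] with z z1 z2 z3
  have := hA F (z - s • v) fun t ht => ?_
  · rw [sub_add_cancel] at this
    exact this.trans (by gcongr)
  have st : s - t ∈ Icc 0 s := ⟨sub_nonneg.2 ht.2, by linarith [ht.1]⟩
  have k := inb z z1 _ st
  have u : inv e (z - (s - t) • v) ∈ U := by
    rcases st.1.eq_or_lt with l | l
    · rwa [← l, zero_smul, sub_zero]
    · exact h2 _ z3 _ (hr2 k) (ll z z1 _ ⟨l, st.2⟩)
  rw [show z - s • v + t • v = z - (s - t) • v by module]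
  exact ⟨k, (h1 _ u (hr2 k)).2, (n1.tl _ k).1, (n1.tl _ k).2, ev _ k u⟩

end Vale.Agent.P354CB70
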