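import Vale.Agent.P354CB.Ez

/-!
Limits of end points of short timelike curves are causally related.
-/

open Set Filter Topology Metric

namespace Vale.Agent.P354CB70

open Vale.Agent.P354n Vale.Agent.P354CB
open Vale.Agent.P354XJ (bilin_of co_mem inv_co co_inv inv_cont co_cont on_nhds)

variable {M : Spc} {e : M.Chart} {p T : R4} {r L c : ℝ}

/-- The time form of a small ball. -/
theorem theta (h : St M) (N : NB e p r L c T) :
    ∃ θ : R4 →L[ℝ] ℝ, ∀ a, θ a = -M.g e p a T := by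
  have hp := N.sub (mem_closedBall_self N.r0.le)
  refine ⟨-LinearMap.toContinuousLinearMap (IsLinearMap.mk' _ ((h.lor e).met.lin p hp T)),
    fun a => ?_⟩
  rw [(h.lor e).met.symm p hp]
  rfl

/-- A curve is moved by del and pushed to the future. -/
theorem push (B : B0) (h : St M) (N : NB e p r L c T) : ∃ ω : R4 → ℝ, Continuous ω ∧
    ∀ u, Cv M (Icc 0 1) u → (∀ t ∈ Icc (0 : ℝ) 1, On e (u t) ∧ co e (u t) ∈ closedBall p (r / 2)) →
    ∀ del : R4, ‖del‖ + ‖del‖ * ω (co e (u 1) - co e (u 0)) * ‖T‖ ≤ r / 2 →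
    LL M (inv e (co e (u 0) + del))
      (inv e (co e (u 1) + del + (‖del‖ * ω (co e (u 1) - co e (u 0))) • T)) := by
  obtain ⟨θ, hθ⟩ := theta h N
  have c0 := N.c0
  have L0 := N.L0
  have r0 := N.r0
  obtain ⟨K, K0, hK⟩ : ∃ K, 0 ≤ K ∧ K * c * c = L * (1 + ‖T‖) :=
    ⟨L * (1 + ‖T‖) / (c * c), by positivity, by field_simp⟩
  refine ⟨fun v => Real.exp (K * θ v) - 1, by fun_prop, fun u hu hin del hd => ?_⟩
  have ud := uniqueDiffOn_Icc (zero_lt_one' ℝ)
  obtain ⟨x', x1, x2⟩ := B.vel hu ud fun t ht => (hin t ht).1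
  set x : ℝ → R4 := fun s => co e (u s) with hx
  have big : ∀ t ∈ Icc (0 : ℝ) 1, x t ∈ closedBall p r := fun t ht =>
    closedBall_subset_closedBall (by linarith) (hin t ht).2
  have cn : ∀ t ∈ Icc (0 : ℝ) 1, ∀ z ∈ closedBall p r, c * ‖x' t‖ ≤ -M.g e z (x' t) T :=
    fun t ht z hz => N.cone _ (big t ht) z hz _ (x2 t ht).2.1.le (x2 t ht).2.2.le
  have th : ∀ t ∈ Icc (0 : ℝ) 1, c * ‖x' t‖ ≤ θ (x' t) := fun t ht =>
    hθ _ ▸ cn t ht p (mem_closedBall_self r0.le)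
  have d1 : ∀ t ∈ Icc (0 : ℝ) 1,
      HasDerivWithinAt (fun s => K * θ (x s - x 0)) (K * θ (x' t)) (Icc 0 1) t := fun t ht =>
    (θ.hasFDerivAt.comp_hasDerivWithinAt t ((x2 t ht).1.sub_const _)).const_mul K
  have mo : MonotoneOn (fun s => K * θ (x s - x 0)) (Icc 0 1) :=
    monotoneOn_of_hasDerivWithinAt_nonneg (convex_Icc 0 1)
      (fun t ht => (d1 t ht).continuousWithinAt)
      (fun t ht => (d1 t (interior_subset ht)).mono interior_subset) fun t ht =>
        mul_nonneg K0 ((by positivity : 0 ≤ c * ‖x' t‖).trans (th t (interior_subset ht)))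
  have m0 := left_mem_Icc.2 (zero_le_one' ℝ)
  have m1 := right_mem_Icc.2 (zero_le_one' ℝ)
  set E : ℝ → ℝ := fun s => Real.exp (K * θ (x s - x 0)) with hE
  have E1 : ∀ t ∈ Icc (0 : ℝ) 1, 1 ≤ E t ∧ E t ≤ E 1 := fun t ht =>
    ⟨Real.one_le_exp (by simpa using mo m0 ht ht.1), Real.exp_le_exp.2 (mo ht m1 ht.2)⟩
  have d2 : ∀ t ∈ Icc (0 : ℝ) 1, HasDerivWithinAt (fun s => x s + del + (‖del‖ * (E s - 1)) • T)
      (x' t + (‖del‖ * (E t * (K * θ (x' t)))) • T) (Icc 0 1) t := fun t ht =>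
    ((x2 t ht).1.add_const del).add ((((d1 t ht).exp.sub_const 1).const_mul _).smul_const T)
  have cE : ContinuousOn E (Icc 0 1) := fun t ht => (d1 t ht).exp.continuousWithinAt
  have k := B.chart h (e := e) ud (x' := fun t => x' t + (‖del‖ * (E t * (K * θ (x' t)))) • T)
    (x1.add ((continuousOn_const.mul (cE.mul (continuousOn_const.mul
      (θ.continuous.comp_continuousOn x1)))).smul continuousOn_const))
    (x := fun s => x s + del + (‖del‖ * (E s - 1)) • T) fun t ht => ?_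
  · exact ⟨_, k, by simp [hE, hx], rfl⟩
  obtain ⟨e1, e2⟩ := E1 t ht
  have n0 := norm_nonneg del
  have nT := norm_nonneg T
  set y := x t + del + (‖del‖ * (E t - 1)) • T with hy
  have w0 : 0 ≤ ‖del‖ * (E t - 1) := mul_nonneg n0 (sub_nonneg.2 e1)
  have s1 : ‖y - x t‖ ≤ ‖del‖ + ‖del‖ * (E t - 1) * ‖T‖ := by
    rw [show y - x t = del + (‖del‖ * (E t - 1)) • T by rw [hy]; abel]
    refine (norm_add_le _ _).trans ?_
    rw [norm_smul, Real.norm_of_nonneg w0]
  have s2 : ‖del‖ * (E t - 1) * ‖T‖ ≤ ‖del‖ * (E 1 - 1) * ‖T‖ := by gcongr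
  have yb : y ∈ closedBall p r := by
    have := dist_triangle y (x t) p
    have k2 : dist (x t) p ≤ r / 2 := (hin t ht).2
    rw [dist_eq_norm y (x t)] at this
    have k3 : ‖del‖ + ‖del‖ * (E 1 - 1) * ‖T‖ ≤ r / 2 := hd
    rw [mem_closedBall]
    linarith
  have ym := N.sub yb
  have Bi := bilin_of (h.lor e) ym
  have sy := (h.lor e).met.symm y ym
  have tl := N.tl y yb
  have a0 : 0 < ‖x' t‖ := norm_pos_iff.2 fun k => by
    have k1 := (x2 t ht).2.1
    have k2 := (bilin_of (h.lor e) (N.sub (big t ht))).smul_left 0 0 0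
    rw [zero_smul, zero_mul] at k2
    rw [k] at k1
    exact k1.ne k2
  have a1 := cn t ht y yb
  have a2 := th t ht
  have a3 := (abs_le.1 (N.lip y yb _ (big t ht) (x' t) (x' t))).2
  have a4 : M.g e (x t) (x' t) (x' t) < 0 := (x2 t ht).2.1
  set a := x' t
  set v := ‖del‖ * (E t * (K * θ a)) with hv
  have v1 : ‖del‖ * (E t * (K * (c * ‖a‖))) ≤ v := by rw [hv]; gcongr
  have v0 : 0 ≤ v := le_trans (by positivity) v1
  have s3 : ‖y - x t‖ ≤ ‖del‖ * E t * (1 + ‖T‖) := by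
    nlinarith [mul_nonneg n0 nT]
  have s4 : L * ‖y - x t‖ * ‖a‖ ≤ c * v := by
    calc L * ‖y - x t‖ * ‖a‖ ≤ L * (‖del‖ * E t * (1 + ‖T‖)) * ‖a‖ := by gcongr
      _ = L * (1 + ‖T‖) * (‖del‖ * E t * ‖a‖) := by ring
      _ = c * (‖del‖ * (E t * (K * (c * ‖a‖)))) := by rw [← hK]; ring
      _ ≤ c * v := by gcongr
  have q1 : M.g e y (a + v • T) (a + v • T) < 0 := by
    simp only [Bi.add_left, Bi.add_right, Bi.smul_left, Bi.smul_right, sy T a]
    nlinarith [mul_le_mul_of_nonneg_right s4 a0.le, mul_le_mul_of_nonneg_left a1 v0,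
      mul_nonneg v0 (mul_nonneg v0 (neg_nonneg.2 tl.1.le)), mul_nonneg v0 (mul_pos c0 a0).le]
  refine ⟨ym, d2 t ht, q1, P354YC.cone (h.lor e) ym tl.1 q1 ?_ ((h.lor e).tl y ym).le
    (sy _ _ ▸ tl.2)⟩
  rw [Bi.add_left, Bi.smul_left]
  nlinarith [mul_nonneg v0 (neg_nonneg.2 tl.1.le), mul_pos c0 a0]

/-- The pairs of end points of curves in V. -/
def Ends (M : Spc) (V : Set M.pt) : Set (M.pt × M.pt) :=
  {q | ∃ c, Cv M (Icc 0 1) c ∧ MapsTo c (Icc 0 1) V ∧ c 0 = q.1 ∧ c 1 = q.2}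

theorem half (B : B0) (C : CORNER) (O : OPEN) (NB : NBALL) (h : St M) (x : M.pt) :
    ∃ V ∈ 𝓝 x, ∀ a ∈ V, ∀ b ∈ V, (a, b) ∈ closure (Ends M V) → ∀ z, LL M b z → LL M a z := by
  obtain ⟨e, he⟩ := M.cover x
  replace he : On e x := he
  obtain ⟨r, L, c, N⟩ := NB M h e _ (co_mem he)
  obtain ⟨ω, w1, w2⟩ := push B h N
  have r0 := half_pos N.r0
  set T := M.X e (co e x)
  refine ⟨{y | On e y ∧ co e y ∈ closedBall (co e x) (r / 2)},
    (on_nhds he).and ((co_cont he).eventually (closedBall_mem_nhds _ r0)), fun a ha b hb k z l => ?_⟩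
  have ca : ContinuousAt (fun q : M.pt × M.pt => co e q.1) (a, b) :=
    ContinuousAt.comp (g := co e) (co_cont ha.1) continuousAt_fst
  have cb : ContinuousAt (fun q : M.pt × M.pt => co e q.2) (a, b) :=
    ContinuousAt.comp (g := co e) (co_cont hb.1) continuousAt_snd
  have c1 : ContinuousAt (fun q : M.pt × M.pt => ‖co e a - co e q.1‖ * ω (co e q.2 - co e q.1))
      (a, b) := (continuousAt_const.sub ca).norm.mul (w1.continuousAt.comp (cb.sub ca))
  have c2 : ContinuousAt (fun q : M.pt × M.pt => co e q.2 + (co e a - co e q.1) +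
      (‖co e a - co e q.1‖ * ω (co e q.2 - co e q.1)) • T) (a, b) :=
    (cb.add (continuousAt_const.sub ca)).add (c1.smul continuousAt_const)
  have c3 : ContinuousAt (fun q : M.pt × M.pt => inv e (co e q.2 + (co e a - co e q.1) +
      (‖co e a - co e q.1‖ * ω (co e q.2 - co e q.1)) • T)) (a, b) :=
    ContinuousAt.comp (g := inv e) (inv_cont (by simpa using co_mem hb.1)) c2
  have e1 := c3.eventually ((open_past B O h z).mem_nhds (by simpa [inv_co hb.1] using l))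
  have e2 := ((continuousAt_const (y := co e a).sub ca).norm.add
    (c1.mul (continuousAt_const (y := ‖T‖)))).eventually (ge_mem_nhds (a := r / 2) (by simpa using r0))
  obtain ⟨q, ⟨q1, q2⟩, u, u1, u2, u3, u4⟩ := mem_closure_iff_nhds.1 k _ (e1.and e2)
  have := w2 u u1 u2 (co e a - co e q.1) (by rw [u3, u4]; exact q2)
  rw [u3, u4, add_sub_cancel, inv_co ha.1] at this
  exact ll_trans B C h this q1

theorem pu (B : B0) (C : CORNER) (O : OPEN) (NB : NBALL) : PU := fun M h x => by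
  obtain ⟨V, V1, V2⟩ := half B C O NB h x
  obtain ⟨W, W1, W2⟩ := half B C O NB (B.st_rev h) x
  refine ⟨V ∩ W, inter_mem V1 W1, fun a ha b hb k => ⟨V2 a ha.1 b hb.1 (closure_mono ?_ k),
    fun w l => (B.ll_rev h).1 (W2 b hb.2 a ha.2 ?_ w ((B.ll_rev h).2 l))⟩⟩
  · rintro q ⟨u, u1, u2, u3⟩
    exact ⟨u, u1, fun t ht => (u2 ht).1, u3⟩
  refine map_mem_closure (f := Prod.swap) continuous_swap k ?_
  rintro q ⟨u, u1, u2, u3, u4⟩
  refine ⟨fun t => u (1 - t), (B.cv_rev h 1).2 ?_, fun t ht => (u2 ⟨by linarith [ht.2],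
    by linarith [ht.1]⟩).2, by simpa using u4, by simpa using u3⟩
  simpa using u1

end Vale.Agent.P354CB70
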